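import Vale.Agent.P247.H383.K3FIN.Evv

/-!
# P247, K3-FIN: continuity of the flux, convergence in the Wiener algebras
-/

open scoped ContDiff Topology
open Set MeasureTheory Filter Metric Asymptotics

noncomputable section

namespace Vale.Agent.P247.H383

open Vale.Agent.P247.H74 Vale.Agent.P247.H332

theorem volume_sq : volume (Icc (0 : P2) 1) = 1 := by
  rw [← Prod.mk_zero_zero, ← Prod.mk_one_one, ← Icc_prod_Icc, Measure.volume_eq_prod,
    Measure.prod_prod]
  simp

theorem continuous_mean {X : Type*} [TopologicalSpace X] {G : X × P2 → ℝ} (hG : Continuous G) :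
    Continuous (fun x => mean (fun p => G (x, p))) := by
  rw [continuous_iff_continuousAt]
  intro x₀
  rw [ContinuousAt, Metric.tendsto_nhds]
  intro ε hε
  have h1 : ∀ᶠ x in 𝓝 x₀, ∀ p ∈ Icc (0 : P2) 1, dist (G (x, p)) (G (x₀, p)) < ε / 2 := by
    refine isCompact_Icc.eventually_forall_of_forall_eventually (P := fun x p => dist (G (x, p)) (G (x₀, p)) < ε / 2) fun p _ => ?_
    have hc : Continuous fun z : X × P2 => dist (G (z.1, z.2)) (G (x₀, z.2)) := by fun_prop
    have h0 : (fun z : X × P2 => dist (G (z.1, z.2)) (G (x₀, z.2))) (x₀, p) = 0 := by simp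
    exact (hc.continuousAt (x := (x₀, p))).eventually (gt_mem_nhds (by rw [h0]; linarith))
  have hint : ∀ x, IntegrableOn (fun p => G (x, p)) (Icc (0 : P2) 1) := fun x =>
    (by fun_prop : Continuous fun p => G (x, p)).continuousOn.integrableOn_compact isCompact_Icc
  have hvol : volume.real (Icc (0 : P2) 1) = 1 := by
    rw [measureReal_def, volume_sq]
    simp
  filter_upwards [h1] with x hx
  rw [dist_eq_norm]
  unfold mean
  rw [← integral_sub (hint x) (hint x₀)]
  have h2 := norm_setIntegral_le_of_norm_le_const (μ := volume) (s := Icc (0 : P2) 1)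
    (f := fun p => G (x, p) - G (x₀, p)) (C := ε / 2) (by
      rw [volume_sq]
      exact ENNReal.one_lt_top) (fun p hp => by
      have := hx p hp
      rw [dist_eq_norm] at this
      exact this.le)
  rw [hvol, mul_one] at h2
  linarith

theorem continuous_evv (w : WA) (m : ℕ) :
    Continuous (fun q : (Fin 4 → WR m) × P2 => evv q.1 q.2) := (evv_contDiff w m).continuous

theorem continuous_phi_evv (w : WA) (m : ℕ) :
    Continuous (fun q : (Fin 4 → WR m) × P2 => phi (evv q.1) q.2) :=
  (linC.continuous.comp continuous_snd).add (continuous_evv w m)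

theorem continuous_ds_phi_evv (w : WA) {m : ℕ} (hm : 1 ≤ m) :
    Continuous (fun q : (Fin 4 → WR m) × P2 => ds (phi (evv q.1)) q.2) := by
  have h : (fun q : (Fin 4 → WR m) × P2 => ds (phi (evv q.1)) q.2) =
      fun q => linC (1, 0) + fderiv ℝ (evv q.1) q.2 (1, 0) :=
    funext fun q => ds_phi (evv_diff w hm q.1 q.2)
  rw [h]
  exact continuous_const.add (continuous_fderiv_evv w hm _)

theorem continuous_dt_phi_evv (w : WA) {m : ℕ} (hm : 1 ≤ m) :
    Continuous (fun q : (Fin 4 → WR m) × P2 => dt (phi (evv q.1)) q.2) := by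
  have h : (fun q : (Fin 4 → WR m) × P2 => dt (phi (evv q.1)) q.2) =
      fun q => linC (0, 1) + fderiv ℝ (evv q.1) q.2 (0, 1) :=
    funext fun q => dt_phi (evv_diff w hm q.1 q.2)
  rw [h]
  exact continuous_const.add (continuous_fderiv_evv w hm _)

theorem continuous_flux (w : WA) (D : Data) {m : ℕ} (hm : 1 ≤ m) :
    Continuous (fun a : Fin 4 → WR m => flux D (evv a)) := by
  have hl : Continuous (D.η 0).lam := (D.η 0).lam_smooth.continuous
  have h0 := continuous_evv w m
  have h1 := continuous_phi_evv w m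
  have h2 := continuous_ds_phi_evv w hm
  have h3 := continuous_dt_phi_evv w hm
  have h4 := continuous_fderiv_evv w hm (1, 0)
  have h5 := continuous_fderiv_evv w hm (0, 1)
  unfold flux
  refine Continuous.prodMk ?_ ?_
  · refine continuous_mean (G := fun q : (Fin 4 → WR m) × P2 =>
      (D.η 0).lam (phi (evv q.1) q.2) (ds (phi (evv q.1)) q.2) - (D.η 0).κ (e 2) (evv q.1 q.2)
      + (1 / 2) * (D.η 0).κ (evv q.1 q.2) (ds (evv q.1) q.2)) ?_
    refine Continuous.add (Continuous.sub ?_ ?_) (continuous_const.mul ?_)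
    · exact (hl.comp h1).clm_apply h2
    · exact ((D.η 0).κ (e 2)).continuous.comp h0
    · exact ((D.η 0).κ.continuous.comp h0).clm_apply h4
  · refine continuous_mean (G := fun q : (Fin 4 → WR m) × P2 =>
      (D.η 0).lam (phi (evv q.1) q.2) (dt (phi (evv q.1)) q.2) - (D.η 0).κ (e 3) (evv q.1 q.2)
      + (1 / 2) * (D.η 0).κ (evv q.1 q.2) (dt (evv q.1) q.2)) ?_
    refine Continuous.add (Continuous.sub ?_ ?_) (continuous_const.mul ?_)
    · exact (hl.comp h1).clm_apply h3
    · exact ((D.η 0).κ (e 3)).continuous.comp h0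
    · exact ((D.η 0).κ.continuous.comp h0).clm_apply h5

theorem norm_iter_comp_le (i : Fin 4) {g : P2 → R4} (hg : ContDiff ℝ ∞ g) (j : ℕ) (p : P2) :
    ‖iteratedFDeriv ℝ j (fun q => g q i) p‖ ≤ ‖iteratedFDeriv ℝ j g p‖ := by
  have h1 : (fun q => g q i) = (ContinuousLinearMap.proj (R := ℝ) i : R4 →L[ℝ] ℝ) ∘ g := rfl
  rw [h1, ContinuousLinearMap.iteratedFDeriv_comp_left _ hg.contDiffAt
    (by exact_mod_cast (le_top : (j : ℕ∞) ≤ ⊤))]
  refine (ContinuousLinearMap.norm_compContinuousMultilinearMap_le _ _).trans ?_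
  have h2 : ‖(ContinuousLinearMap.proj (R := ℝ) i : R4 →L[ℝ] ℝ)‖ ≤ 1 :=
    ContinuousLinearMap.opNorm_le_bound _ zero_le_one fun v => by
      rw [one_mul]
      exact norm_le_pi_norm v i
  calc _ ≤ 1 * ‖iteratedFDeriv ℝ j g p‖ := by gcongr
    _ = _ := one_mul _

/-- smooth convergence implies convergence in every `WR m` -/
theorem tendsto_of_smooth (w : WA) (m : ℕ) (an : ℕ → Fin 4 → WR m) (a₀ : Fin 4 → WR m)
    (h0 : ContDiff ℝ ∞ (evv a₀)) (hn : ∀ n, ContDiff ℝ ∞ (evv (an n)))
    (h : TendSmooth (fun n => evv (an n)) (evv a₀)) : Tendsto an atTop (𝓝 a₀) := by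
  obtain ⟨C, hC⟩ := w.norm_le m
  rw [Metric.tendsto_nhds]
  intro ε hε
  have hB : 0 < ε / (2 * (|C| + 1)) := by positivity
  have h1 : ∀ᶠ n in atTop, ∀ j ∈ Finset.range (m + 4), ∀ p,
      dist (iteratedFDeriv ℝ j (evv a₀) p) (iteratedFDeriv ℝ j (evv (an n)) p) <
        ε / (2 * (|C| + 1)) := by
    rw [Filter.eventually_all_finset]
    intro j _
    exact Metric.tendstoUniformly_iff.1 (h j) _ hB
  filter_upwards [h1] with n hn1
  rw [dist_pi_lt_iff hε]
  intro i
  rw [dist_eq_norm]
  have hsub : ev (an n i - a₀ i) = fun p => (evv (an n) - evv a₀) p i := by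
    funext p
    rw [ev_sub]
    rfl
  have hsm : ContDiff ℝ ∞ (evv (an n) - evv a₀) := (hn n).sub h0
  have h2 : ‖an n i - a₀ i‖ ≤ C * (ε / (2 * (|C| + 1))) := by
    refine hC _ ?_ _ ?_
    · rw [hsub]
      exact contDiff_pi.1 hsm i
    · intro j hj p
      rw [hsub]
      refine (norm_iter_comp_le i hsm j p).trans ?_
      have h3 := hn1 j (Finset.mem_range.2 (by omega)) p
      rw [dist_comm, dist_eq_norm] at h3
      have h4 : iteratedFDeriv ℝ j (evv (an n) - evv a₀) p =
          iteratedFDeriv ℝ j (evv (an n)) p - iteratedFDeriv ℝ j (evv a₀) p :=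
        iteratedFDeriv_sub_apply ((hn n).of_le (by exact_mod_cast (le_top : (j : ℕ∞) ≤ ⊤))).contDiffAt
          (h0.of_le (by exact_mod_cast (le_top : (j : ℕ∞) ≤ ⊤))).contDiffAt
      rw [h4]
      exact h3.le
  have h5 : C * (ε / (2 * (|C| + 1))) ≤ |C| * (ε / (2 * (|C| + 1))) := by
    gcongr
    exact le_abs_self C
  have h6 : |C| * (ε / (2 * (|C| + 1))) < ε := by
    have : |C| * (ε / (2 * (|C| + 1))) = ε * (|C| / (2 * (|C| + 1))) := by ring
    rw [this]
    have h7 : |C| / (2 * (|C| + 1)) < 1 := by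
      rw [div_lt_one (by positivity)]
      have := abs_nonneg C
      linarith
    calc ε * (|C| / (2 * (|C| + 1))) < ε * 1 := by gcongr
      _ = ε := mul_one _
  linarith

end Vale.Agent.P247.H383
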