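import Vale.Agent.P247.H383.K3FIN.Lin

/-!
# P247, K3-FIN: vector valued evaluation, inclusions, stability of immersions
-/

open scoped ContDiff Topology
open Set MeasureTheory Filter Metric Asymptotics

noncomputable section

namespace Vale.Agent.P247.H383

open Vale.Agent.P247.H74 Vale.Agent.P247.H332

theorem evv_contDiff (w : WA) (m : ℕ) :
    ContDiff ℝ m (fun q : (Fin 4 → WR m) × P2 => evv q.1 q.2) := by
  rw [contDiff_pi]
  intro i
  exact (w.ev_smooth m).comp (((contDiff_apply ℝ (WR m) i).comp contDiff_fst).prodMk contDiff_snd)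

theorem evv_per (w : WA) {m : ℕ} (a : Fin 4 → WR m) : Per (evv a) :=
  fun k n p => funext fun i => w.ev_per m (a i) k n p

theorem evv_inj (w : WA) {m : ℕ} {a b : Fin 4 → WR m} (h : evv a = evv b) : a = b :=
  funext fun i => w.inj m _ _ (funext fun p => congrFun (congrFun h p) i)

theorem evv_sub {m : ℕ} (a b : Fin 4 → WR m) (p : P2) : evv (a - b) p = evv a p - evv b p :=
  funext fun i => ev_sub (a i) (b i) p

theorem exists_evv (w : WA) (m : ℕ) {f : P2 → R4} (hf : ContDiff ℝ ∞ f) (hp : Per f) :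
    ∃ a : Fin 4 → WR m, evv a = f := by
  have h : ∀ i, ∃ a : WR m, ev a = fun p => f p i := fun i =>
    w.smooth_mem m _ (contDiff_pi.1 hf i) (fun k n p => congrFun (hp k n p) i)
  choose a ha using h
  exact ⟨a, funext fun p => funext fun i => congrFun (ha i) p⟩

/-- the inclusions on quadruples -/
def incv (w : WA) (m : ℕ) : (Fin 4 → WR (m + 1)) →L[ℝ] (Fin 4 → WR m) :=
  ContinuousLinearMap.pi fun i => (w.inc m).comp (ContinuousLinearMap.proj i)

theorem evv_incv (w : WA) (m : ℕ) (a : Fin 4 → WR (m + 1)) : evv (incv w m a) = evv a :=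
  funext fun p => funext fun i => w.inc_ev m (a i) p

/-- the composite inclusion -/
def incl (w : WA) : ∀ k : ℕ, (Fin 4 → WR (k + 3)) →L[ℝ] (Fin 4 → WR 3)
  | 0 => ContinuousLinearMap.id ℝ _
  | (k + 1) => (incl w k).comp (incv w (k + 3))

theorem evv_incl (w : WA) : ∀ (k : ℕ) (a : Fin 4 → WR (k + 3)), evv (incl w k a) = evv a
  | 0, _ => rfl
  | (k + 1), a => by
    show evv (incl w k (incv w (k + 3) a)) = evv a
    rw [evv_incl w k]
    exact evv_incv w (k + 3) a

/-- the linear part of `phi` -/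
def linC : P2 →L[ℝ] R4 := LinearMap.toContinuousLinearMap
  { toFun := lin
    map_add' := by
      intro u v
      ext i
      fin_cases i <;> simp [lin]
    map_smul' := by
      intro c u
      ext i
      fin_cases i <;> simp [lin] }

theorem linC_apply (p : P2) : linC p = lin p := rfl

theorem fderiv_phi {f : P2 → R4} {p : P2} (hf : DifferentiableAt ℝ f p) (v : P2) :
    fderiv ℝ (phi f) p v = linC v + fderiv ℝ f p v := by
  have h : phi f = fun q => linC q + f q := rfl
  have h2 : HasFDerivAt (fun q => linC q + f q) (linC + fderiv ℝ f p) p :=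
    linC.hasFDerivAt.add hf.hasFDerivAt
  rw [h, h2.fderiv]
  rfl

theorem ds_phi {f : P2 → R4} {p : P2} (hf : DifferentiableAt ℝ f p) :
    ds (phi f) p = linC (1, 0) + ds f p := fderiv_phi hf _

theorem dt_phi {f : P2 → R4} {p : P2} (hf : DifferentiableAt ℝ f p) :
    dt (phi f) p = linC (0, 1) + dt f p := fderiv_phi hf _

theorem evv_diff (w : WA) {m : ℕ} (hm : 1 ≤ m) (a : Fin 4 → WR m) :
    Differentiable ℝ (evv a) := by
  have h := (evv_contDiff w m).comp (contDiff_prodMk_right (𝕜 := ℝ) (n := (m : WithTop ℕ∞)) a)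
  exact h.differentiable (by exact_mod_cast (by omega : m ≠ 0))

theorem fderiv_evv (w : WA) {m : ℕ} (hm : 1 ≤ m) (a : Fin 4 → WR m) (p v : P2) :
    fderiv ℝ (evv a) p v =
      fderiv ℝ (fun q : (Fin 4 → WR m) × P2 => evv q.1 q.2) (a, p) (0, v) := by
  have h1 : HasFDerivAt (fun q : (Fin 4 → WR m) × P2 => evv q.1 q.2) _ (a, p) :=
    ((evv_contDiff w m).differentiable (by exact_mod_cast (by omega : m ≠ 0)) (a, p)).hasFDerivAt
  have h2 : HasFDerivAt (fun q : P2 => (a, q)) (ContinuousLinearMap.inr ℝ (Fin 4 → WR m) P2) p :=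
    hasFDerivAt_prodMk_right a p
  have h3 : HasFDerivAt (evv a) _ p := h1.comp p h2
  rw [h3.fderiv]
  rfl

theorem continuous_fderiv_evv (w : WA) {m : ℕ} (hm : 1 ≤ m) (v : P2) :
    Continuous (fun q : (Fin 4 → WR m) × P2 => fderiv ℝ (evv q.1) q.2 v) := by
  have h : (fun q : (Fin 4 → WR m) × P2 => fderiv ℝ (evv q.1) q.2 v) =
      fun q => fderiv ℝ (fun q : (Fin 4 → WR m) × P2 => evv q.1 q.2) q (0, v) :=
    funext fun q => fderiv_evv w hm q.1 q.2 v
  rw [h]
  exact ((evv_contDiff w m).continuous_fderiv (by exact_mod_cast (by omega : m ≠ 0))).clm_apply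
    continuous_const

theorem per_fderiv {E : Type*} [NormedAddCommGroup E] [NormedSpace ℝ E] {g : P2 → E} (hg : Per g)
    (m n : ℤ) (p : P2) : fderiv ℝ g (p.1 + m, p.2 + n) = fderiv ℝ g p := by
  have h1 : (fun q : P2 => g (q + ((m : ℝ), (n : ℝ)))) = g := by
    funext q
    exact hg m n q
  have h2 := fderiv_comp_add_right (𝕜 := ℝ) (f := g) (x := p) ((m : ℝ), (n : ℝ))
  rw [h1] at h2
  rw [h2]
  rfl

/-- continuous periodic functions are bounded -/
theorem per_bounded {F : Type*} [NormedAddCommGroup F] {g : P2 → F} (hg : Continuous g)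
    (hp : Per g) : ∃ C, 0 ≤ C ∧ ∀ p, ‖g p‖ ≤ C := by
  obtain ⟨C, hC⟩ := (isCompact_Icc (a := (0 : P2)) (b := 1)).exists_bound_of_continuousOn
    hg.continuousOn
  have key : ∀ p, ‖g p‖ ≤ C := by
    intro p
    have h1 : g (Int.fract p.1, Int.fract p.2) = g p := by
      have := hp (-⌊p.1⌋) (-⌊p.2⌋) p
      rw [← this]
      congr 2 <;> rw [Int.fract] <;> push_cast <;> ring
    rw [← h1]
    refine hC _ ⟨?_, ?_⟩
    · exact ⟨Int.fract_nonneg _, Int.fract_nonneg _⟩
    · exact ⟨(Int.fract_lt_one _).le, (Int.fract_lt_one _).le⟩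
  exact ⟨C, (norm_nonneg _).trans (key 0), key⟩

theorem exists_int_shift (p : P2) : ∃ (m n : ℤ), (p.1 + m, p.2 + n) ∈ Icc (0 : P2) 1 := by
  refine ⟨-⌊p.1⌋, -⌊p.2⌋, ?_⟩
  have a1 := Int.floor_le p.1
  have a2 := (Int.lt_floor_add_one p.1).le
  have b1 := Int.floor_le p.2
  have b2 := (Int.lt_floor_add_one p.2).le
  refine ⟨⟨?_, ?_⟩, ⟨?_, ?_⟩⟩
  · push_cast; simp only [Prod.fst_zero]; linarith
  · push_cast; simp only [Prod.snd_zero]; linarith
  · push_cast; simp only [Prod.fst_one]; linarith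
  · push_cast; simp only [Prod.snd_one]; linarith

theorem imm_near (w : WA) {m : ℕ} (hm : 1 ≤ m) (a₀ : Fin 4 → WR m) (h : Imm (evv a₀)) :
    ∀ᶠ a in 𝓝 a₀, Imm (evv a) := by
  have hc : Continuous (fun q : (Fin 4 → WR m) × P2 => linC (1, 0) + fderiv ℝ (evv q.1) q.2 (1, 0)) :=
    continuous_const.add (continuous_fderiv_evv w hm _)
  have h1 : ∀ᶠ a in 𝓝 a₀, ∀ p ∈ Icc (0 : P2) 1, linC (1, 0) + fderiv ℝ (evv a) p (1, 0) ≠ 0 := by
    refine isCompact_Icc.eventually_forall_of_forall_eventually fun p _ => ?_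
    refine hc.continuousAt.eventually_ne ?_
    have := h p
    rw [ds_phi (evv_diff w hm a₀ p)] at this
    exact this
  filter_upwards [h1] with a ha p
  obtain ⟨k, n, hkn⟩ := exists_int_shift p
  rw [ds_phi (evv_diff w hm a p)]
  have h2 := ha _ hkn
  have h3 := per_fderiv (evv_per w a) k n p
  rw [h3] at h2
  exact h2

end Vale.Agent.P247.H383
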