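import Vale.Agent.P247.H332.K3.Sta

/-!
# P247, K3-FIN: linearity of the evaluation map of the Wiener algebras
-/

open scoped ContDiff Topology
open Set MeasureTheory Filter Metric Asymptotics

noncomputable section

namespace Vale.Agent.P247.H383

open Vale.Agent.P247.H74 Vale.Agent.P247.H332

theorem norm_ch (n : ℤ × ℤ) (p : P2) : ‖ch n p‖ = 1 := by
  unfold ch
  rw [Complex.norm_exp]
  simp

theorem one_le_wt (n : ℤ × ℤ) : 1 ≤ wt n := by
  unfold wt
  have h1 := abs_nonneg (n.1 : ℝ)
  have h2 := abs_nonneg (n.2 : ℝ)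
  linarith

theorem cf_sub {m : ℕ} (a b : WR m) (n : ℤ × ℤ) : cf (a - b) n = cf a n - cf b n := by
  unfold cf
  rw [← sub_div]
  rfl

theorem summable_cf {m : ℕ} (a : WR m) : Summable (fun n => ‖cf a n‖) := by
  have h := (lp.memℓp (show realSub from a).1).summable (by norm_num)
  simp only [ENNReal.toReal_one, Real.rpow_one] at h
  refine Summable.of_nonneg_of_le (fun n => norm_nonneg _) (fun n => ?_) h
  unfold cf
  rw [norm_div, norm_pow, Complex.norm_real, Real.norm_eq_abs,
    abs_of_nonneg (zero_le_one.trans (one_le_wt n))]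
  exact div_le_self (norm_nonneg _) (one_le_pow₀ (one_le_wt n))

theorem summable_ev {m : ℕ} (a : WR m) (p : P2) :
    Summable (fun n => (cf a n * ch n p).re) := by
  refine Summable.of_norm_bounded (summable_cf a) (fun n => ?_)
  rw [Real.norm_eq_abs]
  calc |(cf a n * ch n p).re| ≤ ‖cf a n * ch n p‖ := Complex.abs_re_le_norm _
    _ = ‖cf a n‖ := by rw [norm_mul, norm_ch, mul_one]

theorem ev_sub {m : ℕ} (a b : WR m) (p : P2) : ev (a - b) p = ev a p - ev b p := by
  unfold ev
  rw [← (summable_ev a p).tsum_sub (summable_ev b p)]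
  refine tsum_congr fun n => ?_
  rw [cf_sub, sub_mul, Complex.sub_re]

end Vale.Agent.P247.H383
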