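import Vale.Agent.P247.H383.K3FIN.Cont

/-!
# P247, package K3-FIN: local families of tori, from the local theorem in one space
-/

open scoped ContDiff Topology
open Set MeasureTheory Filter Metric Asymptotics

noncomputable section

namespace Vale.Agent.P247.H383

open Vale.Agent.P247.H74 Vale.Agent.P247.H332

theorem Fop_of_JT {D : Data} {f : P2 → R4} {τ : ℂ} (h : JT D f τ) (p : P2) : Fop D f τ p = 0 := by
  unfold Fop
  rw [h.eq p]
  abel

theorem eq_of_Fop {D : Data} {f : P2 → R4} {τ : ℂ} {p : P2} (h : Fop D f τ p = 0) :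
    dt (phi f) p = τ.re • ds (phi f) p + τ.im • D.J (phi f p) (ds (phi f) p) := by
  unfold Fop at h
  rw [sub_sub, sub_eq_zero] at h
  exact h

theorem K3FIN : K3FIN_statement := by
  intro w hF hR h1 h2 h3 h4 hL D f₀ τ₀ hJ hC hI
  obtain ⟨a₀, ha₀, ρ, hρ, ε, hε, S, hS1, hS2, hS3, hS4, hS5⟩ :=
    hL w hF h1 h2 h3 h4 2 le_rfl D f₀ τ₀ hJ hC hI
  set y₀ := flux D f₀ with hy₀
  -- tori of the family
  have hjt : ∀ y ∈ ball y₀ ε, JT D (evv (S y).1) (S y).2 := by
    intro y hy
    obtain ⟨_, him, hop, _, _⟩ := hS4 y hy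
    exact ⟨hR w hF D 2 le_rfl (S y).1 (S y).2 him hop, evv_per w _, him,
      fun p => eq_of_Fop (hop p)⟩
  -- immersions near `y₀`
  have hI' : ∀ᶠ a in 𝓝 a₀, Imm (evv a) := imm_near w (by norm_num) a₀ (ha₀ ▸ hI)
  have hc0 : Tendsto (fun y => (S y).1) (𝓝 y₀) (𝓝 a₀) := by
    have := hS1.continuousAt.fst
    rw [ContinuousAt, hS3] at this
    exact this
  obtain ⟨ε', hε', hball⟩ := Metric.eventually_nhds_iff_ball.1 (hc0.eventually hI')
  set δ := min ε ε' with hδ
  have hδ0 : 0 < δ := lt_min hε hε'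
  have hsub1 : ball y₀ δ ⊆ ball y₀ ε := ball_subset_ball (min_le_left _ _)
  have hsub2 : ball y₀ δ ⊆ ball y₀ ε' := ball_subset_ball (min_le_right _ _)
  -- local smoothness at every level
  have key : ∀ y₁ ∈ ball y₀ δ, ∀ k : ℕ, ∃ S' : P2 → (Fin 4 → WR (k + 3)) × ℂ,
      ContDiffAt ℝ ∞ S' y₁ ∧
      ∀ᶠ y in 𝓝 y₁, evv (S y).1 = evv (S' y).1 ∧ (S y).2 = (S' y).2 := by
    intro y₁ hy₁ k
    have hy₁' := hsub1 hy₁
    obtain ⟨hb, him, hop, hcen, hfl⟩ := hS4 y₁ hy₁'
    obtain ⟨a₁, ha₁, ρ', hρ', ε₁, hε₁, S', hS'1, _, hS'3, hS'4, _⟩ :=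
      hL w hF h1 h2 h3 h4 (k + 2) (by omega) D (evv (S y₁).1) (S y₁).2 (hjt y₁ hy₁') hcen
        (hball y₁ (hsub2 hy₁))
    rw [hfl] at hS'1 hS'3 hS'4
    have hinc : incl w k a₁ = (S y₁).1 := by
      apply evv_inj w
      rw [evv_incl w k, ha₁]
    have hcont : Tendsto (fun y => ((incl w k (S' y).1, (S' y).2) : (Fin 4 → WR 3) × ℂ)) (𝓝 y₁)
        (𝓝 (S y₁)) := by
      have e1 : Tendsto (fun y => incl w k (S' y).1) (𝓝 y₁) (𝓝 (S y₁).1) := by
        have := ((incl w k).continuous.tendsto _).comp hS'1.continuousAt.fst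
        have h7 : incl w k (S' y₁).1 = (S y₁).1 := by rw [hS'3]; exact hinc
        rw [← h7]
        exact this
      have e2 : Tendsto (fun y => (S' y).2) (𝓝 y₁) (𝓝 (S y₁).2) := by
        have := hS'1.continuousAt.snd
        rw [ContinuousAt, hS'3] at this
        exact this
      exact e1.prodMk_nhds e2
    refine ⟨S', hS'1, ?_⟩
    filter_upwards [hcont.eventually (isOpen_ball.mem_nhds hb), isOpen_ball.mem_nhds hy₁',
      ball_mem_nhds y₁ hε₁] with y g1 g2 g3
    obtain ⟨_, _, hop', hcen', hfl'⟩ := hS'4 y g3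
    have hu := hS5 (incl w k (S' y).1, (S' y).2) g1 (by
      intro p
      show Fop D (evv (incl w k (S' y).1)) (S' y).2 p = 0
      rw [evv_incl w k]
      exact hop' p) (by
      show Cen (evv (incl w k (S' y).1))
      rw [evv_incl w k]
      exact hcen') (by
      show flux D (evv (incl w k (S' y).1)) ∈ ball y₀ ε
      rw [evv_incl w k, hfl']
      exact g2)
    have hu' : (incl w k (S' y).1, (S' y).2) = S y := by
      rw [hu]
      congr 1
      show flux D (evv (incl w k (S' y).1)) = y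
      rw [evv_incl w k, hfl']
    constructor
    · rw [← hu']
      exact evv_incl w k _
    · rw [← hu']
  refine ⟨δ, hδ0, fun y => evv (S y).1, fun y => (S y).2, ⟨?_, ?_, ?_, ?_, ?_, ?_⟩, ?_, ?_, ?_⟩
  · -- joint smoothness
    rw [contDiffOn_infty]
    intro n
    rintro ⟨y₁, p₁⟩ ⟨hy₁, -⟩
    obtain ⟨S', hS'1, hS'2⟩ := key y₁ hy₁ n
    have e1 : ContDiffAt ℝ n (fun q : P2 × P2 => evv (S' q.1).1 q.2) (y₁, p₁) := by
      have g1 : ContDiffAt ℝ ∞ (fun q : P2 × P2 => (((S' q.1).1, q.2) : (Fin 4 → WR (n + 3)) × P2))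
          (y₁, p₁) := by
        refine ContDiffAt.prodMk ?_ contDiffAt_snd
        exact ContDiffAt.fst (ContDiffAt.comp (y₁, p₁) hS'1 contDiffAt_fst)
      have g2 : ContDiffAt ℝ n (fun q : (Fin 4 → WR (n + 3)) × P2 => evv q.1 q.2)
          ((S' y₁).1, p₁) :=
        ((evv_contDiff w (n + 3)).of_le (by exact_mod_cast Nat.le_add_right n 3)).contDiffAt
      exact g2.comp (y₁, p₁) (g1.of_le (by exact_mod_cast (le_top : (n : ℕ∞) ≤ ⊤)))
    refine (e1.congr_of_eventuallyEq ?_).contDiffWithinAt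
    have e2 : ∀ᶠ q in 𝓝 (y₁, p₁), evv (S q.1).1 = evv (S' q.1).1 :=
      (continuousAt_fst (p := (y₁, p₁))).eventually (hS'2.mono fun y hy => hy.1)
    filter_upwards [e2] with q hq
    rw [hq]
  · -- smoothness of `T`
    intro y₁ hy₁
    obtain ⟨S', hS'1, hS'2⟩ := key y₁ hy₁ 0
    exact (hS'1.snd.congr_of_eventuallyEq (hS'2.mono fun y hy => hy.2)).contDiffWithinAt
  · intro y hy
    exact hjt y (hsub1 hy)
  · intro y hy
    exact (hS4 y (hsub1 hy)).2.2.2.1
  · intro y hy
    exact (hS4 y (hsub1 hy)).2.2.2.2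
  · intro y hy
    exact hball y (hsub2 hy)
  · show evv (S y₀).1 = f₀
    rw [hS3]
    exact ha₀
  · show (S y₀).2 = τ₀
    rw [hS3]
  · intro fn τn hfn hcn hsm hτ
    have hex : ∀ n, ∃ a : Fin 4 → WR 3, evv a = fn n := fun n =>
      exists_evv w 3 (hfn n).smooth (hfn n).per
    choose an han using hex
    have ht : Tendsto an atTop (𝓝 a₀) := by
      refine tendsto_of_smooth w 3 an a₀ ?_ ?_ ?_
      · rw [ha₀]
        exact hJ.smooth
      · intro n
        rw [han]
        exact (hfn n).smooth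
      · rw [ha₀]
        have : (fun n => evv (an n)) = fn := funext han
        rw [this]
        exact hsm
    have ht2 : Tendsto (fun n => (an n, τn n)) atTop (𝓝 (a₀, τ₀)) := ht.prodMk_nhds hτ
    have hfl : Tendsto (fun n => flux D (fn n)) atTop (𝓝 y₀) := by
      have h5 := ((continuous_flux w D (by norm_num : 1 ≤ 3)).tendsto a₀).comp ht
      have h6 : (fun a : Fin 4 → WR 3 => flux D (evv a)) ∘ an = fun n => flux D (fn n) := by
        funext n
        show flux D (evv (an n)) = _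
        rw [han]
      rw [h6] at h5
      rw [ha₀] at h5
      exact h5
    filter_upwards [ht2.eventually (ball_mem_nhds _ hρ), hfl.eventually (ball_mem_nhds y₀ hδ0)]
      with n g1 g2
    have hu := hS5 (an n, τn n) g1 (by
      intro p
      show Fop D (evv (an n)) (τn n) p = 0
      rw [han]
      exact Fop_of_JT (hfn n) p) (by
      show Cen (evv (an n))
      rw [han]
      exact hcn n) (by
      show flux D (evv (an n)) ∈ ball y₀ ε
      rw [han]
      exact hsub1 g2)
    have hu' : (an n, τn n) = S (flux D (fn n)) := by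
      rw [hu]
      congr 1
      show flux D (evv (an n)) = _
      rw [han]
    refine ⟨g2, ?_, ?_⟩
    · show fn n = evv (S (flux D (fn n))).1
      rw [← hu']
      exact (han n).symm
    · show τn n = (S (flux D (fn n))).2
      rw [← hu']

end Vale.Agent.P247.H383
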